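import Vale.Agent.P269FB.Pt

/-!
# P269D: exterior algebra lemmas for the vanishing by degree
-/

noncomputable section

namespace Vale.Agent.P269D

open ExteriorAlgebra Module
open scoped Matrix ContDiff

section alg
variable {V W : Type} [AddCommGroup V] [Module ℂ V] [AddCommGroup W] [Module ℂ W]

theorem ext_zero [FiniteDimensional ℂ V] {k : ℕ} (h : finrank ℂ V < k) {u : ExteriorAlgebra ℂ V}
    (hu : u ∈ ⋀[ℂ]^k V) : u = 0 := by
  have h1 : finrank ℂ (⋀[ℂ]^k V) = 0 := by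
    rw [exteriorPower.finrank_eq, Nat.choose_eq_zero_of_lt h]
  have h2 : (⟨u, hu⟩ : ⋀[ℂ]^k V) = 0 := finrank_zero_iff_forall_zero.1 h1 _
  exact congrArg Subtype.val h2

/-- products of `k` elements of the subspace `S` -/
def Pw (S : Submodule ℂ V) (k : ℕ) : Submodule ℂ (ExteriorAlgebra ℂ V) := S.map (ι ℂ) ^ k

theorem map_pw (f : W →ₗ[ℂ] V) {k : ℕ} {u : ExteriorAlgebra ℂ W} (hu : u ∈ ⋀[ℂ]^k W) :
    ExteriorAlgebra.map f u ∈ Pw (LinearMap.range f) k := by
  have h : (⋀[ℂ]^k W).map (ExteriorAlgebra.map f).toLinearMap = Pw (LinearMap.range f) k := by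
    rw [exteriorPower, Submodule.map_pow, Pw, ← LinearMap.range_comp, map_comp_ι,
      LinearMap.range_comp]
  exact h ▸ Submodule.mem_map_of_mem hu

theorem pw_mono {S S' : Submodule ℂ V} (h : S ≤ S') (k : ℕ) : Pw S k ≤ Pw S' k :=
  pow_le_pow_left' (Submodule.map_mono h) k

theorem pw_top (k : ℕ) : Pw (⊤ : Submodule ℂ V) k = ⋀[ℂ]^k V := by
  rw [Pw, Submodule.map_top]

theorem pw_le (S : Submodule ℂ V) (k : ℕ) : Pw S k ≤ ⋀[ℂ]^k V :=
  (pw_mono le_top k).trans (pw_top k).le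

theorem pw_mul {S : Submodule ℂ V} {k l : ℕ} {u w : ExteriorAlgebra ℂ V} (hu : u ∈ Pw S k)
    (hw : w ∈ Pw S l) : u * w ∈ Pw S (k + l) := by
  rw [Pw, pow_add]
  exact Submodule.mul_mem_mul hu hw

theorem ext_mul {k l : ℕ} {u w : ExteriorAlgebra ℂ V} (hu : u ∈ ⋀[ℂ]^k V)
    (hw : w ∈ ⋀[ℂ]^l V) : u * w ∈ ⋀[ℂ]^(k + l) V := by
  rw [← pw_top] at *
  exact pw_mul hu hw

theorem ext_pow {k : ℕ} {u : ExteriorAlgebra ℂ V} (hu : u ∈ ⋀[ℂ]^k V) (a : ℕ) :
    u ^ a ∈ ⋀[ℂ]^(k * a) V := by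
  induction a with
  | zero => rw [pow_zero, mul_zero, exteriorPower, pow_zero]; exact Submodule.one_le.1 le_rfl
  | succ a ih => rw [pow_succ, Nat.mul_succ]; exact ext_mul ih hu

theorem map_ext (f : W →ₗ[ℂ] V) {k : ℕ} {u : ExteriorAlgebra ℂ W} (hu : u ∈ ⋀[ℂ]^k W) :
    ExteriorAlgebra.map f u ∈ ⋀[ℂ]^k V := pw_le _ k (map_pw f hu)

theorem pw_zero {S : Submodule ℂ V} [FiniteDimensional ℂ S] {k : ℕ} (h : finrank ℂ S < k)
    {u : ExteriorAlgebra ℂ V} (hu : u ∈ Pw S k) : u = 0 := by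
  have e : (⋀[ℂ]^k S).map (ExteriorAlgebra.map S.subtype).toLinearMap = Pw S k := by
    rw [exteriorPower, Submodule.map_pow, Pw, ← LinearMap.range_comp, map_comp_ι,
      LinearMap.range_comp, Submodule.range_subtype]
  rw [← e] at hu
  obtain ⟨w, hw, rfl⟩ := hu
  rw [ext_zero h hw, map_zero]

theorem i_comm (a : V) (x : ExteriorAlgebra ℂ V) :
    ι ℂ a * x = CliffordAlgebra.involute x * ι ℂ a := by
  induction x using ExteriorAlgebra.induction with
  | algebraMap r => rw [AlgHom.commutes, Algebra.commutes]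
  | ι b =>
    have h : CliffordAlgebra.involute (ι ℂ b : ExteriorAlgebra ℂ V) = -ι ℂ b :=
      CliffordAlgebra.involute_ι b
    rw [h, neg_mul, eq_neg_iff_add_eq_zero, ι_add_mul_swap]
  | mul x y hx hy => rw [← mul_assoc, hx, mul_assoc, hy, map_mul, mul_assoc]
  | add x y hx hy => rw [mul_add, hx, hy, map_add, add_mul]

theorem ext_comm {k : ℕ} {u : ExteriorAlgebra ℂ V} (hu : u ∈ ⋀[ℂ]^k V)
    (x : ExteriorAlgebra ℂ V) : u * x = CliffordAlgebra.involute^[k] x * u := by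
  induction hu using Submodule.pow_induction_on_left' with
  | algebraMap r => rw [Function.iterate_zero_apply, Algebra.commutes]
  | add a b i _ _ ha hb => rw [add_mul, ha, hb, mul_add]
  | mem_mul a ha i y _ hy =>
    obtain ⟨a, rfl⟩ := ha
    rw [mul_assoc, hy, ← mul_assoc, i_comm, Function.iterate_succ_apply', mul_assoc]

/-- the invariant of the filtration argument -/
def Inv (S : Submodule ℂ V) (y : ExteriorAlgebra ℂ V) (s : ℕ) : Prop :=
  ∃ (T : Submodule ℂ V) (k : ℕ) (z u : ExteriorAlgebra ℂ V), S ≤ T ∧ u ∈ Pw T k ∧ y = z * u ∧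
    finrank ℂ T + s ≤ finrank ℂ S + k

theorem Inv.step [FiniteDimensional ℂ V] {S N : Submodule ℂ V} {y a u : ExteriorAlgebra ℂ V}
    {s k : ℕ} (h : Inv S y s) (hN : finrank ℂ N ≤ 2) (hu : u ∈ Pw (S ⊔ N) k) :
    Inv S (y * (a * u)) (s + (k - 2)) := by
  obtain ⟨T, l, z, w, hT, hw, rfl, hs⟩ := h
  rcases le_or_gt k 2 with hk | hk
  · refine ⟨T, l, z * CliffordAlgebra.involute^[l] (a * u), w, hT, hw, ?_, by omega⟩
    rw [mul_assoc, ext_comm (pw_le _ _ hw), mul_assoc]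
  · refine ⟨T ⊔ N, l + k, z * CliffordAlgebra.involute^[l] a, w * u, hT.trans le_sup_left,
      pw_mul (pw_mono le_sup_left _ hw) (pw_mono (sup_le_sup_right hT N) _ hu), ?_, ?_⟩
    · rw [mul_assoc, ← mul_assoc w, ext_comm (pw_le _ _ hw), mul_assoc, mul_assoc]
    · have := Submodule.finrank_add_le_finrank_add_finrank T N
      omega

theorem Inv.prod [FiniteDimensional ℂ V] {S : Submodule ℂ V} {n : ℕ}
    (a u : Fin n → ExteriorAlgebra ℂ V) (k : Fin n → ℕ)
    (h : ∀ i, ∃ N : Submodule ℂ V, finrank ℂ N ≤ 2 ∧ u i ∈ Pw (S ⊔ N) (k i))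
    {y : ExteriorAlgebra ℂ V} {s : ℕ} (hy : Inv S y s) :
    Inv S (y * (List.ofFn fun i => a i * u i).prod) (s + ∑ i, (k i - 2)) := by
  induction n generalizing y s with
  | zero => simpa using hy
  | succ n ih =>
    obtain ⟨N, hN, hu⟩ := h 0
    rw [List.ofFn_succ, List.prod_cons, Fin.sum_univ_succ, ← mul_assoc, ← add_assoc]
    exact ih (fun i => a i.succ) (fun i => u i.succ) (fun i => k i.succ) (fun i => h i.succ)
      (hy.step hN hu)

theorem Inv.zero [FiniteDimensional ℂ V] {S : Submodule ℂ V} {y : ExteriorAlgebra ℂ V} {s : ℕ}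
    (h : Inv S y s) (hs : finrank ℂ S < s) : y = 0 := by
  obtain ⟨T, l, z, w, -, hw, rfl, h⟩ := h
  rw [pw_zero (by omega) hw, mul_zero]

theorem prod_ext {n : ℕ} (u : Fin n → ExteriorAlgebra ℂ V) (k : Fin n → ℕ)
    (h : ∀ i, u i ∈ ⋀[ℂ]^(k i) V) : (List.ofFn u).prod ∈ ⋀[ℂ]^(∑ i, k i) V := by
  induction n with
  | zero =>
    rw [List.ofFn_zero, List.prod_nil, Finset.univ_eq_empty, Finset.sum_empty, exteriorPower,
      pow_zero]
    exact Submodule.one_le.1 le_rfl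
  | succ n ih =>
    rw [List.ofFn_succ, List.prod_cons, Fin.sum_univ_succ]
    exact ext_mul (h 0) (ih _ _ fun i => h i.succ)

end alg

section real
variable {E : Type} [NormedAddCommGroup E] [NormedSpace ℝ E] [FiniteDimensional ℝ E]

theorem dual_inj : Function.Injective
    (((finBasis ℝ E).constr ℂ).symm.toLinearMap ∘ₗ
      (ContinuousLinearMap.coeLM ℂ : (E →L[ℝ] ℂ) →ₗ[ℂ] E →ₗ[ℝ] ℂ)) :=
  ((finBasis ℝ E).constr ℂ).symm.injective.comp ContinuousLinearMap.coe_injective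

theorem dual_fin : FiniteDimensional ℂ (E →L[ℝ] ℂ) := Module.Finite.of_injective _ dual_inj

theorem dual_le : finrank ℂ (E →L[ℝ] ℂ) ≤ finrank ℝ E := by
  have h := LinearMap.finrank_le_finrank_of_injective (dual_inj (E := E))
  rwa [finrank_fintype_fun_eq_card, Fintype.card_fin] at h

end real

open P269F P269FB P299.IX P299.IX.Fock P281Z.Hg P272.K

variable {m : ℕ}

theorem i_mem {V : Type} [AddCommGroup V] [Module ℂ V] (a : V) : ι ℂ a ∈ ⋀[ℂ]^1 V := by
  rw [exteriorPower, pow_one]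
  exact ⟨a, rfl⟩

theorem top_deg {k : ℕ} {u : Λ (Fin m → ℂ)} (hu : u ∈ ⋀[ℂ]^k _) (h : k ≠ m * 2) :
    top m u = 0 := by
  rw [← ιMulti_span_fixedDegree] at hu
  refine (Submodule.span_le.2 ?_ : _ ≤ LinearMap.ker (top m)) hu
  rintro _ ⟨v, rfl⟩
  show top m _ = 0
  rw [top, liftAlternating_apply_ιMulti, Pi.single_eq_of_ne h]
  rfl

theorem list_mem {V α : Type} [AddCommGroup V] [Module ℂ V] (f : α → V) (L : List α) :
    (L.map fun l => ι ℂ (f l)).prod ∈ ⋀[ℂ]^L.length V := by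
  induction L with
  | nil => rw [List.length_nil, exteriorPower, pow_zero]; exact Submodule.one_le.1 le_rfl
  | cons a L ih =>
    rw [List.map_cons, List.prod_cons, List.length_cons, add_comm]
    exact ext_mul (i_mem _) ih

theorem ty_mem {p q : ℕ} {u : Λ (Fin m → ℂ)} (h : Ty p q u) : u ∈ ⋀[ℂ]^(p + q) _ := by
  rw [← (ph m).symm_apply_apply u, pi_eq_sum_univ' (ph m u), map_sum]
  refine Submodule.sum_mem _ fun I _ => ?_
  by_cases k : ph m u I = 0
  · rw [k, zero_smul, map_zero]; exact Submodule.zero_mem _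
  · rw [map_smul, ← (ty_iff.1 h I k).2]
    refine Submodule.smul_mem _ _ ?_
    have e := list_mem (bx (m := m)) (I.sort (· ≤ ·))
    rw [Finset.length_sort, ← symm_ev] at e
    exact e

theorem c1_mem {h : (Fin m → ℂ) → ℝ} {z : Fin m → ℂ} (hh : ContDiffAt ℝ ∞ h z) (h0 : 0 < h z) :
    c1 h z ∈ ⋀[ℂ]^2 _ := by
  have h1 : ContDiffAt ℝ ∞ (fun y => (Real.log (h y) : ℂ)) z :=
    Complex.ofRealCLM.contDiff.contDiffAt.comp z (hh.log h0.ne')
  have e : c1 h z = -((2 * Real.pi : ℂ)⁻¹ • ∑ j, ∑ k,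
      (Complex.I * cHess (fun y => Real.log (h y)) z j k) • (ι ℂ (bx (hl j)) * ι ℂ (bx (ah k)))) := by
    apply (ph m).injective
    rw [ph_c1 h1, map_neg, map_smul, Lw, Matrix.sum_mulVec, map_sum]
    congr 2
    refine Finset.sum_congr rfl fun j _ => ?_
    rw [Matrix.sum_mulVec, map_sum]
    refine Finset.sum_congr rfl fun k _ => ?_
    rw [map_smul, Matrix.smul_mulVec, ph_bx, ← mul_one (ι ℂ (bx (ah k))), ph_bx, ph_one,
      Matrix.mulVec_mulVec]
  rw [e]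
  exact neg_mem (Submodule.smul_mem _ _ (Submodule.sum_mem _ fun j _ => Submodule.sum_mem _
    fun k _ => Submodule.smul_mem _ _ (ext_mul (i_mem _) (i_mem _))))

end Vale.Agent.P269D
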