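import Vale.Agent.P269C.Defs
import Vale.Agent.P269H.Defs

/-!
# P269: Gromov-Witten invariants of positive degree (definitions only)

A stable map `C → X ⊆ P^N` is a triple `(C, L, u)`, `u ∈ Γ(L)^(N+1)`. Put `A = ω^3 L^9` (very
ample), `V = Γ(A)`. The triples `(C, L, ũ)`, `ũ ∈ Hom(V, Γ(L A))^(N+1)`, form a smooth stack in
which the stable maps (`ũ(s) = u s`) are the zero scheme `Z` of
`S = (ũ(s) s' - ũ(s') s, f_j(ũ(s)))`, a section of a vector bundle `W`. The normal cone of `Z`,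
the limit of the graphs of `t S`, lies in the obstruction bundle `F ⊆ W|Z`, and the virtual class
is its intersection with the zero section of `F` (Li-Tian, Behrend-Fantechi), computed here with
a Thom form of `F`. With marked points the class is pulled back.
-/

noncomputable section

namespace Vale.Agent.P269D

open Set Filter MvPolynomial Sum P273.H183 P269C P269F P269H
open scoped Topology ContDiff

variable {L : Type} {m m' k k' N v n r c : ℕ}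

/-- `C` is a family of prestable curves (`IsStable` without its last clause). -/
def Pre (C : Fam L m) : Prop :=
  IsOpen C.B ∧ T2Space C.X ∧ (∀ p, C.π p ∈ C.B) ∧
  (∀ K ⊆ C.B, IsCompact K → IsCompact (C.π ⁻¹' K)) ∧
  (∀ p, ∃ U x y t, p ∈ U ∧ IsChart C.π C.hol U x y t) ∧
  ∀ b ∈ C.B, IsConnected (C.fib b) ∧ ∀ i, C.π (C.s i b) = b ∧ ContinuousAt (C.s i) b ∧
    (∀ f, C.hol f (C.s i b) → AnalyticAt ℂ (fun b' => f (C.s i b')) b) ∧
    (∀ j, C.s i b = C.s j b → i = j) ∧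
    ∀ U x y t, IsChart C.π C.hol U x y t → C.s i b ∈ U → x (C.s i b) ≠ 0 ∨ y (C.s i b) ≠ 0

/-- The vector fields on the fibre that vanish at the marked points and satisfy `Q` are zero. -/
def Stab (C : Fam L m) (b : Fin m → ℂ) (Q : Df C → Prop) : Prop :=
  ∀ D, C.IsField b D → Q D → ∀ p ∈ C.fib b, ∀ f, C.hol f p → D f p = 0

/-- Near `p`, `D` is a unit times `x ∂/∂x - y ∂/∂y`: a frame of the dual of the relative
dualizing sheaf `ω`. -/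
def Gen (C : Fam L m) (D : Df C) (p : C.X) : Prop :=
  ∃ U x y t h, p ∈ U ∧ IsChart C.π C.hol U x y t ∧ C.hol h p ∧ h p ≠ 0 ∧ ∀ᶠ q in 𝓝 p, ∀ f G,
    AnalyticAt ℂ G (C.π q, x q, y q) → (f =ᶠ[𝓝 q] fun z => G (C.π z, x z, y z)) →
      D f q = h q * fderiv ℂ G (C.π q, x q, y q) (0, x q, -y q)

/-- A family of triples `(C, L, ũ)`: frames `D i = k i j D j` of the dual of `ω` on `U i`, the
cocycle `g` of `L`, a frame `σ` of `V`, and `u α a = ũ_α(σ a)`. -/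
structure Th (N v m : ℕ) extends Fam Empty m where
  ι : Type
  U : ι → Set X
  D : ι → (X → ℂ) → X → ℂ
  k : ι → ι → X → ℂ
  g : ι → ι → X → ℂ
  σ : Fin v → ι → X → ℂ
  u : Fin N → Fin v → ι → X → ℂ

/-- `τ` is a section of `ω^a L^e` over `S` (`H` = holomorphic on `S`). -/
def Th.Sec (T : Th N v m) (S : Set T.X) (H : (T.X → ℂ) → T.X → Prop) (a e : ℕ)
    (τ : T.ι → T.X → ℂ) : Prop :=
  ∀ i, ∀ p ∈ T.U i ∩ S, H (τ i) p ∧
    ∀ j, p ∈ T.U j → τ i p = T.k i j p ^ a * T.g i j p ^ e * τ j p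

/-- `τ` is a holomorphic frame of the direct image of `ω^a L^e`. -/
def Th.Frame (T : Th N v m) (a e : ℕ) (τ : Fin k → T.ι → T.X → ℂ) : Prop :=
  (∀ x, T.Sec univ T.hol a e (τ x)) ∧ ∀ b ∈ T.B, ∀ s, T.Sec (T.fib b) (FH T.toFam) a e s →
    ∃! y : Fin k → ℂ, ∀ i, ∀ p ∈ T.U i ∩ T.fib b, s i p = ∑ x, y x * τ x i p

/-- `Φ` is an isomorphism of triples; `Q` is a condition on the induced map
`Hom(V', L' A') → Hom(V, L A)` at each point. -/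
def Th.Iso (T : Th N v m) (b : Fin m → ℂ) (T' : Th N v m') (b' : Fin m' → ℂ)
    (Φ : T.fib b → T'.X) (Q : T.ι → T'.ι → T.fib b → Matrix (Fin v) (Fin v) ℂ → Prop) : Prop :=
  Φ ∈ P269C.Iso T.toFam b T'.toFam b' ∧ ∃ G : Matrix (Fin v) (Fin v) ℂ,
    ∀ i j (p : T.fib b), p.1 ∈ T.U i → Φ p ∈ T'.U j → ∃ κ γ : ℂ,
      (∀ f h, T'.hol f (Φ p) → T.hol h p → (∀ q : T.fib b, h q = f (Φ q)) →
        T.D i h p = κ * T'.D j f (Φ p)) ∧
      (T.σ · i p) = (κ ^ 3 * γ ^ 9) • G.mulVec (T'.σ · j (Φ p)) ∧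
      (∀ α, (T.u α · i p) = (κ ^ 3 * γ ^ 10) • G.mulVec (T'.u α · j (Φ p))) ∧
      Q i j p ((κ ^ 3 * γ ^ 10) • G)

/-- A family of marked curves with a contraction `c` to the curves of `T`, over `β`. -/
structure Pt (T : Th N v m) (n k : ℕ) extends Fam (Fin n) k where
  β : (Fin k → ℂ) → Fin m → ℂ
  c : X → T.X

/-- `c` is holomorphic, an isomorphism on the general fibre, and a stable map. -/
def Pt.Ok {T : Th N v m} (P : Pt T n k) : Prop :=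
  Pre P.toFam ∧ Continuous P.c ∧
  (∀ p, T.π (P.c p) = P.β (P.π p) ∧ ∀ f, T.hol f (P.c p) → P.hol (f ∘ P.c) p) ∧
  P.B ⊆ closure {b ∈ P.B | BijOn P.c (P.fib b) (T.fib (P.β b))} ∧
  ∀ b ∈ P.B, AnalyticAt ℂ P.β b ∧
    Stab P.toFam b fun D => ∀ p ∈ P.fib b, ∀ f, T.hol f (P.c p) → D (f ∘ P.c) p = 0

/-- Isomorphisms of marked triples. -/
def Pt.Iso {T : Th N v m} {T' : Th N v m'} (P : Pt T n k) (b : Fin k → ℂ) (P' : Pt T' n k')
    (b' : Fin k' → ℂ) : Set (P.fib b → P'.X) :=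
  {Ψ ∈ P269C.Iso P.toFam b P'.toFam b' | ∃ Φ, T.Iso (P.β b) T' (P'.β b') Φ (fun _ _ _ _ => True) ∧
    ∀ p q, P.c p.1 = q.1 → P'.c (Ψ p) = Φ q}

variable {M : Type} [TopologicalSpace M] [ChartedSpace (Fin r → ℂ) M] (X : CI r c M)

/-- The components of `W`. -/
abbrev J (N v c : ℕ) : Type := (Fin N × Fin v × Fin v) ⊕ (Fin c × Fin v)

/-- The value of `S` at the point `p`, in the frames on `U i`. -/
def Th.S (T : Th (r + c + 1) v m) (i : T.ι) (p : T.X) : J (r + c + 1) v c → ℂ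
  | inl (α, a, a') => T.u α a i p * T.σ a' i p - T.u α a' i p * T.σ a i p
  | inr (j, a) => eval (T.u · a i p) (X.f j)

/-- The linearisation of `S` at `p` in the direction `ξ ∈ Hom(V, (L A)_p)^(N+1)`. -/
def Th.dS (T : Th (r + c + 1) v m) (i : T.ι) (p : T.X) (ξ : Fin (r + c + 1) → Fin v → ℂ) :
    J (r + c + 1) v c → ℂ
  | inl (α, a, a') => ξ α a * T.σ a' i p - ξ α a' * T.σ a i p
  | inr (j, a) => ∑ α, eval (T.u · a i p) (pderiv α (X.f j)) * ξ α a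

/-- The locus of the maps to `X`. -/
def Th.Z (T : Th (r + c + 1) v m) : Set (Fin m → ℂ) :=
  {b ∈ T.B | ∀ i, ∀ p ∈ T.U i ∩ T.fib b, T.S X i p = 0}

/-- `T` is a family of triples of genus `g`, `V` and `ũ` have no base point, and the maps to `X`
are stable. -/
structure Th.Ok (g : ℕ) (T : Th (r + c + 1) v m) : Prop where
  pre : Pre T.toFam
  cov : ∀ p, ∃ i α a a', p ∈ T.U i ∧ T.u α a i p ≠ 0 ∧ T.σ a' i p ≠ 0
  gen : ∀ i, IsOpen (T.U i) ∧ ∀ p ∈ T.U i, Gen T.toFam (T.D i) p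
  coc : ∀ i j, ∀ p ∈ T.U i ∩ T.U j, T.hol (T.k i j) p ∧ T.hol (T.g i j) p ∧ T.g i j p ≠ 0 ∧
    (∀ f, T.hol f p → T.D i f p = T.k i j p * T.D j f p) ∧
    ∀ l, p ∈ T.U l → T.g i j p * T.g j l p = T.g i l p
  genus : ∀ b ∈ T.B, ∃ e, P269C.Bas T.toFam b (g := g) e
  fr : T.Frame 3 9 T.σ ∧ ∀ α a, T.Sec univ T.hol 3 10 (T.u α a)
  stab : ∀ b ∈ T.Z X, Stab T.toFam b fun D => ∀ i, ∀ p ∈ T.U i ∩ T.fib b, ∀ a α β,
    D (T.u α a i) p * T.u β a i p = D (T.u β a i) p * T.u α a i p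

/-- A chart: triples `T`, frames `τ` of `W`, the coordinates `S` of the section, an extension `Φ`
of the Thom form; marked triples `P`, coordinates `z i` at the marked points, `h i = |dz_i|^2`,
extensions `ε i` of the map to `X` in the charts `e i`, and a cut off `ρ`. -/
structure Ch (X : CI r c M) (v n : ℕ) where
  m : ℕ
  T : Th (r + c + 1) v m
  w : J (r + c + 1) v c → ℕ
  τ : ∀ x, Fin (w x) → T.ι → T.X → ℂ
  S : (Fin m → ℂ) → (Σ x, Fin (w x)) → ℂ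
  Φ : (Fin m → ℂ) × ((Σ x, Fin (w x)) → ℂ) → Λ ((Fin m → ℂ) × ((Σ x, Fin (w x)) → ℂ))
  P : Pt T n (m + n)
  z : Fin n → P.X → ℂ
  h : Fin n → (Fin (m + n) → ℂ) → ℝ
  e : Fin n → OpenPartialHomeomorph M (Fin r → ℂ)
  ε : Fin n → T.X → Fin r → ℂ
  ρ : (Fin (m + n) → ℂ) → ℝ

variable {X}

/-- The total space of `W`. -/
abbrev Ch.W (K : Ch X v n) : Type := (Fin K.m → ℂ) × ((Σ x, Fin (K.w x)) → ℂ)

/-- The value at `p` of the element of `W` with the coordinates `y`. -/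
def Ch.val (K : Ch X v n) (y : (Σ x, Fin (K.w x)) → ℂ) (i : K.T.ι) (p : K.T.X) :
    J (r + c + 1) v c → ℂ := fun x => ∑ a, y ⟨x, a⟩ * K.τ x a i p

/-- `q` and `q'` are isomorphic points of `F` (the elements of `W` over `Z` that are at each
point of the curve in the image of `dS`). -/
def Ch.Rel (K : Ch X v n) (q : K.W) (K' : Ch X v n) (q' : K'.W) : Prop :=
  q.1 ∈ K.T.Z X ∧ q'.1 ∈ K'.T.Z X ∧ ∃ Φ, K.T.Iso q.1 K'.T q'.1 Φ fun i j p G => ∃ ξ,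
    K.val q.2 i p = K.T.dS X i p (fun α => G.mulVec (ξ α)) ∧
      K'.val q'.2 j (Φ p) = K'.T.dS X j (Φ p) ξ

/-- The image of the marked point in the unmarked curve. -/
def Ch.x (K : Ch X v n) (i : Fin n) (b : Fin (K.m + n) → ℂ) : K.T.X := K.P.c (K.P.s i b)

/-- The conditions on a chart. `T` is versal along `Z` and has the dimension of the stack
(the virtual dimension `δ` plus the rank of `F`), so it is etale; `P` is an open part of the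
space of all marked curves over `T`. -/
structure Ch.Ok (g : ℕ) (δ : ℤ) (K : Ch X v n) : Prop where
  ok : K.T.Ok X g ∧ K.P.Ok
  fr : (∀ x, K.T.Frame 6 19 (K.τ (inl x))) ∧
    ∀ x, K.T.Frame (3 * X.dg x.1) (10 * X.dg x.1) (K.τ (inr x))
  sec : ∀ b ∈ K.T.B, ∀ i, ∀ p ∈ K.T.U i ∩ K.T.fib b, K.val (K.S b) i p = K.T.S X i p
  versal : ∀ b ∈ K.T.Z X, ∀ k (T : Th _ v k), T.Ok X g → ∀ t ∈ T.B, ∀ Φ₀,
    T.Iso t K.T b Φ₀ (fun _ _ _ _ => True) → ∃ (β : _) (Φ : T.X → K.T.X), AnalyticAt ℂ β t ∧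
      β t = b ∧ (∀ p, Φ₀ p = Φ p) ∧ ∀ᶠ s in 𝓝 t, (∀ p ∈ T.fib s, ContinuousAt Φ p) ∧
        T.Iso s K.T (β s) (fun p => Φ p) fun _ _ _ _ => True
  inj : ∀ b b', ∀ Ψ ∈ P269C.Iso K.P.toFam b K.P.toFam b', b ∈ K.P.B →
    (∀ p, K.P.c (Ψ p) = K.P.c p) → b = b'
  thom : ∃ R : ℕ, K.m = δ + R ∧ (∀ q, K.Φ q ∈ ⋀[ℂ]^(2 * R) _) ∧ ∀ b ∈ K.T.Z X,
    ∃ j : (Fin R → ℂ) →L[ℂ] _, Function.Injective j ∧ (∀ y, y ∈ range j ↔ K.Rel (b, y) K (b, y)) ∧
      ∫ x, top R (pb (fun x => (b, j x)) x (K.Φ (b, j x))) = 1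
  sm : (∀ q : K.W, q.1 ∈ K.T.B → Sm K.Φ q) ∧ ∃ a, ∀ q : K.W, a ≤ ‖q.2‖ → K.Φ q = 0
  closed : ∀ k (γ : (Fin k → ℂ) → K.W) t, AnalyticAt ℂ γ t →
    (∀ᶠ s in 𝓝 t, K.Rel (γ s) K (γ s)) → d (fun s => pb γ s (K.Φ (γ s))) t = 0
  pts : ∀ i, ∀ b ∈ K.P.B, K.P.hol (K.z i) (K.P.s i b) ∧ Co K.P.toFam (K.z i) (K.P.s i b) ∧
    ContDiffAt ℝ ∞ (K.h i) b ∧ 0 < K.h i b ∧ K.e i ∈ atlas (Fin r → ℂ) M ∧
    (∀ a, K.T.hol (K.ε i · a) (K.x i b)) ∧ K.ε i (K.x i b) ∈ (K.e i).target ∧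
    (K.P.β b ∈ K.T.Z X → ∀ j a, K.x i b ∈ K.T.U j →
      (K.T.u · a j (K.x i b)) ∈ (X.pt ((K.e i).symm (K.ε i (K.x i b)))).submodule)
  cut : Continuous K.ρ ∧ HasCompactSupport K.ρ ∧ tsupport K.ρ ⊆ K.P.B

variable (X) in
/-- A finite atlas for the stack of stable maps to `X` of genus `g` and degree `e > 0` with `n`
marked points (`dim V = 5 g - 5 + 9 e`): the Thom forms of `F` and the metrics on the cotangent
lines are compatible with isomorphisms, the cut offs are a partition of unity on the stack. -/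
structure Atl (g e n : ℕ) where
  N : ℕ
  K : Fin N → Ch X (5 * g + 9 * e - 5) n
  ok : ∀ l, (K l).Ok g ((3 - r) * (g - 1) + X.idx * e)
  thom : ∀ l l' k (γ : (Fin k → ℂ) → (K l).W) (γ' : (Fin k → ℂ) → (K l').W) t,
    AnalyticAt ℂ γ t → AnalyticAt ℂ γ' t → (∀ᶠ s in 𝓝 t, (K l).Rel (γ s) (K l') (γ' s)) →
      pb γ t ((K l).Φ (γ t)) = pb γ' t ((K l').Φ (γ' t))
  met : ∀ l l', ∀ b ∈ (K l).P.B, (K l).P.β b ∈ (K l).T.Z X → ∀ b',
    ∀ Ψ ∈ (K l).P.Iso b (K l').P b', ∀ i f a, (∀ q : (K l).P.fib b, f q = (K l').z i (Ψ q)) →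
      Dr (K l).P.toFam ((K l).z i) f ((K l).P.s i b) a → (K l).h i b = ‖a‖ ^ 2 * (K l').h i b'
  pu : ∀ k k' (T : Th _ _ k) (P : Pt T n k'), T.Ok X g → P.Ok → ∀ b ∈ P.B, P.β b ∈ T.Z X →
    ∑ l, ∑ᶠ x, ((P.Iso b (K l).P x).ncard : ℝ) * (K l).ρ x = 1

/-- The form `(t S)^* Φ ∧ ∏ ψ_i^(μ i) ∧ ev_i^* φ_i` on the base of `P`. -/
def Ch.form (K : Ch X v n) (μ : Fin n → ℕ) (φ : Fin n → Fm r M) (t : ℝ)
    (b : Fin (K.m + n) → ℂ) : Λ (Fin (K.m + n) → ℂ) :=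
  pb K.P.β b (pb (fun a => (a, t • K.S a)) (K.P.β b) (K.Φ (K.P.β b, t • K.S (K.P.β b)))) *
    (List.ofFn fun i => c1 (K.h i) b ^ μ i *
      pb (fun a => K.ε i (K.x i a)) b (φ i (K.e i) (K.ε i (K.x i b)))).prod

/-- The descendant invariant `∫_{[Mbar_{g,n}(X,e)]^vir} ∏ ψ_i^(μ i) ev_i^* φ_i`. -/
def Atl.gw {g e : ℕ} (A : Atl X g e n) (μ : Fin n → ℕ) (φ : Fin n → Fm r M) : ℂ :=
  limUnder atTop fun t : ℝ =>
    ∑ l, ∫ b in (A.K l).P.B, (A.K l).ρ b * top _ ((A.K l).form μ φ t b)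

/-- All descendant invariants `⟨τ_{m_1}(φ_{a_1}) ⋯ τ_{m_n}(φ_{a_n})⟩_{g,e}` in the basis `B`. -/
def GW {ι : Type} [Fintype ι] [DecidableEq ι] (B : P269H.Bas r M ι) (D : Md)
    (A : ∀ g e n, 0 < e → Atl X g e n) (g e : ℕ) (l : List (ℕ × ι)) : ℂ :=
  if h : 0 < e then (A g e l.length h).gw (fun i => (l.get i).1) fun i => B.φ (l.get i).2
  else (X.coh B).N0 D.I g l

end Vale.Agent.P269D
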