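import Vale.Agent.P269D.Alg
import Vale.Agent.P269Z.Stmt

/-!
# P269D: the vanishing of the invariants of positive degree for degree reasons
-/

noncomputable section

namespace Vale.Agent.P269D

open Set Filter MeasureTheory ExteriorAlgebra Module P273.H183 P269F P269H
open scoped Topology ContDiff

theorem ae_fd {k : ℕ} {O : Set (Fin k → ℂ)} (hO : IsOpen O) {f : (Fin k → ℂ) → ℂ}
    (hf : ∀ b ∈ O, DifferentiableAt ℝ f b) : ∀ᵐ b, b ∈ O → f b = 0 → fderiv ℝ f b = 0 := by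
  have hc : ContinuousOn f O := fun b hb => (hf b hb).continuousAt.continuousWithinAt
  have hs : MeasurableSet (O \ (O ∩ f ⁻¹' {0}ᶜ)) :=
    hO.measurableSet.diff (hc.isOpen_inter_preimage hO isOpen_compl_singleton).measurableSet
  have h0 : ∀ b ∈ O \ (O ∩ f ⁻¹' {0}ᶜ), f b = 0 := fun b hb => by
    by_contra h
    exact hb.2 ⟨hb.1, h⟩
  have h1 : ApproximatesLinearOn (fun b => f b • (1 : Fin k → ℂ))
      (0 : (Fin k → ℂ) →L[ℝ] Fin k → ℂ) (O \ (O ∩ f ⁻¹' {0}ᶜ)) 0 :=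
    fun x hx y hy => by simp [h0 x hx, h0 y hy]
  have h2 := h1.norm_fderiv_sub_le volume hs (fun b => (fderiv ℝ f b).smulRight (1 : Fin k → ℂ))
    fun b hb => ((hf b hb.1).hasFDerivAt.smul_const _).hasFDerivWithinAt
  filter_upwards [(ae_restrict_iff' hs).1 h2] with b hb hbO hb0
  have h3 := hb ⟨hbO, fun h => h.2 hb0⟩
  rw [sub_zero, nonpos_iff_eq_zero, nnnorm_eq_zero] at h3
  ext1 w
  by_cases hw : w = 0
  · rw [hw, map_zero, map_zero]
  · obtain ⟨j, -⟩ := Function.ne_iff.1 hw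
    simpa using congrFun (congrArg (fun A => A w) h3) j

section lin
variable {E F G : Type} [NormedAddCommGroup E] [NormedSpace ℝ E] [NormedAddCommGroup F]
  [NormedSpace ℝ F] [NormedAddCommGroup G] [NormedSpace ℝ G]

/-- `A` factors through `B` and one complex coordinate -/
def Fac (B : E →L[ℝ] F) (A : E →L[ℝ] G) : Prop :=
  ∃ (ζ : E →L[ℝ] ℂ) (P : F × ℂ →L[ℝ] G), A = P.comp (B.prod ζ)

theorem fac_of (B : E →L[ℝ] F) (a b : E →L[ℝ] ℂ) (Q : F × ℂ × ℂ →L[ℝ] G) (τ : F →L[ℝ] ℂ)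
    (p q : ℂ) (hr : ∀ v, p * b v + q * a v = τ (B v)) (h : p ≠ 0 ∨ q ≠ 0 ∨ a = 0 ∧ b = 0) :
    Fac B (Q.comp (B.prod (a.prod b))) := by
  rcases h with h | h | ⟨rfl, rfl⟩
  · refine ⟨a, Q.comp ((ContinuousLinearMap.fst ℝ F ℂ).prod ((ContinuousLinearMap.snd ℝ F ℂ).prod
      (p⁻¹ • (τ.comp (ContinuousLinearMap.fst ℝ F ℂ) - q • ContinuousLinearMap.snd ℝ F ℂ)))), ?_⟩
    ext1 v
    show Q (B v, a v, b v) = Q (B v, a v, p⁻¹ * (τ (B v) - q * a v))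
    rw [← hr v, add_sub_cancel_right, inv_mul_cancel_left₀ h]
  · refine ⟨b, Q.comp ((ContinuousLinearMap.fst ℝ F ℂ).prod
      ((q⁻¹ • (τ.comp (ContinuousLinearMap.fst ℝ F ℂ) - p • ContinuousLinearMap.snd ℝ F ℂ)).prod
        (ContinuousLinearMap.snd ℝ F ℂ))), ?_⟩
    ext1 v
    show Q (B v, a v, b v) = Q (B v, q⁻¹ * (τ (B v) - p * b v), b v)
    rw [← hr v, add_sub_cancel_left, inv_mul_cancel_left₀ h]
  · exact ⟨0, Q.comp ((ContinuousLinearMap.fst ℝ F ℂ).prod 0), by ext1 v; rfl⟩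

/-- composition with `A` -/
def pre (A : E →L[ℝ] F) : (F →L[ℝ] ℂ) →ₗ[ℂ] E →L[ℝ] ℂ :=
  ⟨⟨fun a => a.comp A, fun _ _ => rfl⟩, fun _ _ => rfl⟩

theorem pb_eq (f : E → F) (z : E) (u : Λ F) :
    pb f z u = ExteriorAlgebra.map (pre (fderiv ℝ f z)) u := rfl

theorem pre_le [FiniteDimensional ℝ F] (A : E →L[ℝ] F) :
    finrank ℂ (LinearMap.range (pre A)) ≤ finrank ℝ F := by
  have := dual_fin (E := F)
  exact (LinearMap.finrank_range_le _).trans dual_le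

theorem Fac.mem {B : E →L[ℝ] F} {A : E →L[ℝ] G} (h : Fac B A) {k : ℕ} {u : Λ G}
    (hu : u ∈ ⋀[ℂ]^k _) : ∃ N : Submodule ℂ (E →L[ℝ] ℂ), finrank ℂ N ≤ 2 ∧
      ExteriorAlgebra.map (pre A) u ∈ Pw (LinearMap.range (pre B) ⊔ N) k := by
  obtain ⟨ζ, P, rfl⟩ := h
  refine ⟨LinearMap.range (pre ζ), (pre_le ζ).trans Complex.finrank_real_complex.le,
    pw_mono ?_ k (map_pw _ hu)⟩
  rintro _ ⟨a, rfl⟩
  refine Submodule.mem_sup.2 ⟨_, ⟨(a.comp P).comp (ContinuousLinearMap.inl ℝ F ℂ), rfl⟩, _,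
    ⟨(a.comp P).comp (ContinuousLinearMap.inr ℝ F ℂ), rfl⟩, ?_⟩
  ext1 v
  show a (P (B v, 0)) + a (P (0, ζ v)) = a (P (B v, ζ v))
  rw [← map_add, ← map_add, Prod.mk_add_mk, add_zero, zero_add]

end lin

variable {r c v n : ℕ} {M : Type} [TopologicalSpace M] [ChartedSpace (Fin r → ℂ) M]
  {X : CI r c M} {g : ℕ} {δ : ℤ}

theorem Ch.Ok.fac {K : Ch X v n} (h : K.Ok g δ) (i : Fin n) : ∀ᵐ b, b ∈ K.P.B →
    Fac (fderiv ℝ K.P.β b) (fderiv ℝ (fun a => K.ε i (K.x i a)) b) := by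
  obtain ⟨⟨hB, -, -, -, -, hs⟩, hc, hh, -, hβ⟩ := h.ok.2
  have hx : ∀ b ∈ K.P.B, ContinuousAt (K.x i) b := fun b hb =>
    hc.continuousAt.comp ((hs b hb).2 i).2.1
  have hπ : ∀ b ∈ K.P.B, K.T.π (K.x i b) = K.P.β b := fun b hb => by
    rw [Ch.x, (hh _).1, ((hs b hb).2 i).1]
  have ha : ∀ b ∈ K.P.B, ∀ f, K.T.hol f (K.x i b) → AnalyticAt ℂ (fun a => f (K.x i a)) b :=
    fun b hb f hf => ((hs b hb).2 i).2.2.1 _ ((hh _).2 f hf)
  rw [ae_iff]
  refine measure_null_of_locally_null _ fun b0 hb0 => ?_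
  have hb0 : b0 ∈ K.P.B := (Classical.not_imp.1 hb0).1
  obtain ⟨U, x, y, t, hU, hUo, ht, -, hV, hhol⟩ := h.ok.1.pre.2.2.2.2.1 (K.x i b0)
  set O := interior (K.P.B ∩ K.x i ⁻¹' U)
  have hO : O ∈ 𝓝 b0 := interior_mem_nhds.2
    (inter_mem (hB.mem_nhds hb0) (hx b0 hb0 (hUo.mem_nhds hU)))
  have hOB : ∀ b ∈ O, b ∈ K.P.B ∧ K.x i b ∈ U := fun b hb =>
    interior_subset (s := K.P.B ∩ K.x i ⁻¹' U) hb
  have hX : ∀ b ∈ O, DifferentiableAt ℝ (fun a => x (K.x i a)) b := fun b hb =>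
    (ha b (hOB b hb).1 x ((hhol _ (hOB b hb).2 x).2 ⟨fun w => w.2.1,
      analyticAt_fst.comp analyticAt_snd, Eventually.of_forall fun _ => rfl⟩)).differentiableAt
      |>.restrictScalars ℝ
  have hY : ∀ b ∈ O, DifferentiableAt ℝ (fun a => y (K.x i a)) b := fun b hb =>
    (ha b (hOB b hb).1 y ((hhol _ (hOB b hb).2 y).2 ⟨fun w => w.2.2,
      analyticAt_snd.comp analyticAt_snd, Eventually.of_forall fun _ => rfl⟩)).differentiableAt
      |>.restrictScalars ℝ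
  have hxy : ∀ b ∈ O, x (K.x i b) * y (K.x i b) = t (K.P.β b) := fun b hb => by
    obtain ⟨W, -, hW⟩ := (hV U subset_rfl).1 hUo
    have : _ ∈ {w ∈ W | w.2.1 * w.2.2 = t w.1} := hW ▸ mem_image_of_mem _ (hOB b hb).2
    rw [← hπ b (hOB b hb).1]
    exact this.2
  refine ⟨_, inter_mem_nhdsWithin _ hO, measure_eq_zero_iff_ae_notMem.2 ?_⟩
  filter_upwards [ae_fd isOpen_interior hX, ae_fd isOpen_interior hY] with b h1 h2 hb
  refine hb.1 fun hbB => ?_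
  have hbO : b ∈ O := hb.2
  choose G hG hG' using fun a => (hhol _ (hOB b hbO).2 _).1 ((h.pts i b hbB).2.2.2.2.2.1 a)
  have dβ : DifferentiableAt ℝ K.P.β b := (hβ b hbB).1.differentiableAt.restrictScalars ℝ
  have dH := dβ.hasFDerivAt.prodMk ((hX b hbO).hasFDerivAt.prodMk (hY b hbO).hasFDerivAt)
  have dG : DifferentiableAt ℝ (fun w a => G a w) (K.P.β b, x (K.x i b), y (K.x i b)) :=
    differentiableAt_pi.2 fun a => (hπ b hbB ▸ hG a).differentiableAt.restrictScalars ℝ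
  have e : (fun a => K.ε i (K.x i a)) =ᶠ[𝓝 b]
      (fun w a => G a w) ∘ fun a => (K.P.β a, x (K.x i a), y (K.x i a)) := by
    filter_upwards [(hx b hbB).eventually (eventually_all.2 hG'), hB.mem_nhds hbB] with a k1 k2
    funext j
    rw [k1 j, hπ a k2]
    rfl
  rw [e.fderiv_eq, (dG.hasFDerivAt.comp b dH).fderiv]
  have dt : DifferentiableAt ℝ t (K.P.β b) :=
    (hπ b hbB ▸ ht _ (hOB b hbO).2).differentiableAt.restrictScalars ℝ
  have e2 : (fun a => x (K.x i a) * y (K.x i a)) =ᶠ[𝓝 b] t ∘ K.P.β := by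
    filter_upwards [isOpen_interior.mem_nhds hbO] with a k using hxy a k
  have e3 := (((hX b hbO).hasFDerivAt.mul (hY b hbO).hasFDerivAt).congr_of_eventuallyEq
    e2.symm).unique (dt.hasFDerivAt.comp b dβ.hasFDerivAt)
  refine fac_of _ _ _ _ (fderiv ℝ t (K.P.β b)) (x (K.x i b)) (y (K.x i b))
    (fun w => congrArg (fun A => A w) e3) ?_
  by_cases k1 : x (K.x i b) = 0
  · by_cases k2 : y (K.x i b) = 0
    · exact Or.inr (Or.inr ⟨h1 hbO k1, h2 hbO k2⟩)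
    · exact Or.inr (Or.inl k2)
  · exact Or.inl k1

theorem Atl.gw_zero {e : ℕ} (A : Atl X g e n) (μ : Fin n → ℕ) (φ : Fin n → Fm r M)
    (h : ∀ l t, ∀ᵐ b, b ∈ (A.K l).P.B → top _ ((A.K l).form μ φ t b) = 0) : A.gw μ φ = 0 := by
  have e : (fun t : ℝ => ∑ l, ∫ b in (A.K l).P.B,
      (A.K l).ρ b * top _ ((A.K l).form μ φ t b)) = fun _ => 0 := by
    funext t
    refine Finset.sum_eq_zero fun l _ => setIntegral_eq_zero_of_ae_eq_zero ?_
    filter_upwards [h l t] with b hb hB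
    rw [hb hB, mul_zero]
  rw [Atl.gw, e]
  exact tendsto_const_nhds.limUnder_eq

theorem Ch.Ok.deg {K : Ch X v n} (h : K.Ok g δ) {ι : Type} [Fintype ι] (B : Bas r M ι)
    (a : ι) (i : Fin n) {b : Fin (K.m + n) → ℂ} (hb : b ∈ K.P.B) :
    B.φ a (K.e i) (K.ε i (K.x i b)) ∈ ⋀[ℂ]^(B.p a + B.q a) _ := by
  obtain ⟨-, -, -, -, he, -, ht, -⟩ := h.pts i b hb
  have k := B.ty a _ he _ ((K.e i).map_target ht)
  rw [(K.e i).right_inv ht] at k
  exact ty_mem k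

theorem Ch.Ok.van {K : Ch X v n} (h : K.Ok g δ) {ι : Type} [Fintype ι] (B : Bas r M ι)
    (μ : Fin n → ℕ) (a : Fin n → ι) (t : ℝ)
    (hd : 2 * δ < (∑ i, (B.p (a i) + B.q (a i) - 2) : ℕ)) :
    ∀ᵐ b, b ∈ K.P.B → top _ (K.form μ (fun i => B.φ (a i)) t b) = 0 := by
  obtain ⟨R, hR, hΦ, -⟩ := h.thom
  have := dual_fin (E := Fin (K.m + n) → ℂ)
  filter_upwards [ae_all_iff.2 h.fac] with b hb hB
  have h0 : Inv (LinearMap.range (pre (fderiv ℝ K.P.β b))) _ (2 * R) :=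
    ⟨_, 2 * R, 1, _, le_rfl, map_pw _ (map_ext (pre (fderiv ℝ (fun a => (a, t • K.S a)) (K.P.β b)))
      (hΦ (K.P.β b, t • K.S (K.P.β b)))), (one_mul _).symm, le_rfl⟩
  have h1 := Inv.prod (fun i => c1 (K.h i) b ^ μ i) _ (fun i => B.p (a i) + B.q (a i))
    (fun i => (hb i hB).mem (h.deg B (a i) i hB)) h0
  have h2 := pre_le (fderiv ℝ K.P.β b)
  rw [finrank_real_of_complex, finrank_fintype_fun_eq_card, Fintype.card_fin] at h2
  exact (congrArg (top _) (h1.zero (by omega))).trans (map_zero _)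

theorem Ch.Ok.even {K : Ch X v n} (h : K.Ok g δ) {ι : Type} [Fintype ι] (B : Bas r M ι)
    (μ : Fin n → ℕ) (a : Fin n → ι) (t : ℝ) (hd : ¬Even (∑ i, (B.p (a i) + B.q (a i))))
    (b : Fin (K.m + n) → ℂ) (hB : b ∈ K.P.B) :
    top _ (K.form μ (fun i => B.φ (a i)) t b) = 0 := by
  obtain ⟨R, -, hΦ, -⟩ := h.thom
  refine top_deg (ext_mul (map_ext _ (map_ext _ (hΦ _))) (prod_ext _
    (fun i => 2 * μ i + (B.p (a i) + B.q (a i))) fun i => ext_mul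
      (ext_pow (c1_mem (h.pts i b hB).2.2.1 (h.pts i b hB).2.2.2.1) _)
      (map_ext _ (h.deg B (a i) i hB)))) fun k => hd ?_
  rw [Finset.sum_add_distrib, ← Finset.mul_sum] at k
  exact ⟨K.m + n - R - ∑ i, μ i, by omega⟩

theorem sum_get {α : Type} (l : List α) (f : α → ℕ) : (l.map f).sum = ∑ i, f (l.get i) := by
  conv_lhs => rw [← List.ofFn_get l, List.map_ofFn, List.sum_ofFn]
  rfl

/-- **block D** -/
theorem bd : P269Z.BD := by
  intro r c M _ _ X ι _ _ B D A g e he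
  refine ⟨fun l hl => ?_, fun l hl => ?_⟩
  · by_contra k
    refine hl ((dif_pos he).trans (Atl.gw_zero _ _ _ fun j t =>
      ((A g e l.length he).ok j).van B _ (fun i => (l.get i).2) t ?_))
    rw [sum_get] at k
    exact not_le.1 k
  · by_contra k
    refine hl ((dif_pos he).trans (Atl.gw_zero _ _ _ fun j t => Eventually.of_forall
      (((A g e l.length he).ok j).even B _ (fun i => (l.get i).2) t ?_)))
    rw [sum_get] at k
    exact k

end Vale.Agent.P269D
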